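import Vale.Agent.N162X.Final

/-!
# P162: the Thorp shuffle: an explicit upper constant; `2 ^ d` cards need `2 d - 1` shuffles
-/

namespace Vale.Agent.Results.P162.A0BeyondCounting

open Vale.Agent.N162X

theorem result :
    (∃ n₀ : ℕ, ∀ n : ℕ, Even n → n₀ ≤ n → dTV n (tmix n) ≤ 1 / 4 ∧
      tmix n ≤ 3 * 10 ^ 7 * Real.logb 2 n) ∧
    (∀ d : ℕ, 1 ≤ d → 2 * d ≤ tmix (2 ^ d) + 1 ∧
      ∀ t : ℕ, t + 2 ≤ 2 * d → 1 - 2 / √(2 ^ d) ≤ dTV (2 ^ d) t) ∧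
    ∀ d : ℕ, 2 ≤ d → ∀ t : ℕ, t + 1 ≤ 2 * d → 1 / 18 ≤ dTV (2 ^ d) t := by
  refine ⟨?_, fun d hd => ⟨two_mul_le_tmix hd, fun t ht => far_all ht⟩,
    fun d hd t ht => not_small hd ht⟩
  obtain ⟨n₀, h₀⟩ := upper_explicit
  obtain ⟨c, C, -, -, h⟩ := order_even
  exact ⟨max n₀ 2, fun n hn h2 => ⟨(h n hn (le_of_max_le_right h2)).1.1,
    h₀ n hn (le_of_max_le_left h2)⟩⟩

end Vale.Agent.Results.P162.A0BeyondCounting
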