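import Vale.Agent.P162.H72.Convert
import Vale.Agent.N162.Low

/-!
# P162: the Thorp shuffle: decay after order `log n` shuffles; every tolerance

The deck has `n = 2 * m` cards.
-/

namespace Vale.Agent.Results.P162.A0SmallTolerance

open Vale.Agent.P162 Vale.Agent.P162.Statement

theorem result :
    (∃ c C : ℝ, 0 < c ∧ 0 < C ∧ ∀ m : ℕ, 1 ≤ m → ∀ t : ℕ, C * Real.log (2 * m : ℕ) ≤ t →
      distUniform (convPower (shuffleLaw m) t) ≤ Real.exp (-(c * t)) ∧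
        ∀ g : Equiv.Perm (Fin (2 * m)),
          (1 - Real.exp (-(c * t))) / (2 * m).factorial ≤ convPower (shuffleLaw m) t g) ∧
    (∀ m : ℕ, 2 ≤ m → ∀ t : ℕ, 1 / (2 * 4 ^ t) ≤ distUniform (convPower (shuffleLaw m) t)) ∧
    (∃ c C : ℝ, 0 < c ∧ 0 < C ∧ ∀ m : ℕ, 2 ≤ m → ∀ ε : ℝ, 0 < ε → ε ≤ 1 / 4 →
      ∃ T : ℕ, IsLeast {t : ℕ | distUniform (convPower (shuffleLaw m) t) ≤ ε} T ∧
        c * Real.log ((2 * m : ℕ) / ε) ≤ T ∧ T ≤ C * Real.log ((2 * m : ℕ) / ε)) := by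
  simp only [H72.shuffleLaw_eq, H72.convPower_eq, H72.distUniform_eq]
  exact ⟨N.exp_sep, fun m hm t => N.dyadic_lower hm t, N.eps_mix⟩

end Vale.Agent.Results.P162.A0SmallTolerance
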